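import Vale.Agent.P095.Amen.Defs
import Vale.Agent.P095.Equiv.Copies

/-!
# P095: an equivariant copy commuting with the original
-/

namespace Vale.Agent.P095.Amen

open Filter Topology BoundedContinuousFunction TopologicalSpace Vale.Agent.P101.KR
  Vale.Agent.P095.Equiv

noncomputable section

/-- In `F_ω(A)` a separable invariant subalgebra has an equivariant copy commuting with it. -/
theorem exists_centralCopy {G : Type} [Group G] [Countable G] {A : Type} [CStarAlgebra A]
    [SeparableSpace A] {ω : Ultrafilter ℕ} (hω : (ω : Filter ℕ) ≤ cofinite) (α : G → A ≃⋆ₐ[ℂ] A)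
    (hα : ∀ g h a, α (g * h) a = α g (α h a)) :
    ∀ s : Set (CentralAlgebra ω A), s.Countable → (∀ g, Set.MapsTo (centralAct ω α g) s s) →
      ∃ ι : Cl s →⋆ₐ[ℂ] CentralAlgebra ω A, (∀ x y : Cl s, Commute (ι x) (y : CentralAlgebra ω A)) ∧
        ∀ g (x y : Cl s), centralAct ω α g x = y → centralAct ω α g (ι x) = ι y := by
  classical
  intro s hs hmaps
  let lift : CentralAlgebra ω A → ℕ →ᵇ A := fun z => Function.surjInv (cls_surjective (ω := ω)) z.1
  have hlift : ∀ z, cls ω (lift z) = z.1 := fun z => Function.surjInv_eq cls_surjective z.1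
  set L : Set (ℕ →ᵇ A) := lift '' s ∪ ⋃ g, seqMap (α g).toStarAlgHom '' (lift '' s) with hLdef
  have hLc : L.Countable :=
    (hs.image lift).union (Set.countable_iUnion fun g => (hs.image lift).image _)
  set T := StarAlgebra.adjoin ℂ L with hT
  have hθT : ∀ t ∈ T, cls ω t ∈ central A ω := by
    have hle : T ≤ (central A ω).comap (cls ω) := StarAlgebra.adjoin_le (by
      rintro t (⟨z, -, rfl⟩ | ht)
      · show cls ω (lift z) ∈ central A ω
        rw [hlift]
        exact z.2
      · obtain ⟨g, u, ⟨z, -, rfl⟩, rfl⟩ := Set.mem_iUnion.1 ht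
        show cls ω _ ∈ central A ω
        rw [← omegaMap_cls, hlift]
        exact omegaMap_central ω (α g) z)
    exact fun t ht => hle ht
  have hinv : ∀ g, ∀ t ∈ T, seqMap (α g).toStarAlgHom t ∈ T := by
    intro g
    have hle : T ≤ T.comap (seqMap (α g).toStarAlgHom) := StarAlgebra.adjoin_le (by
      rintro t (ht | ht)
      · exact StarAlgebra.subset_adjoin ℂ L (Or.inr (Set.mem_iUnion.2 ⟨g, t, ht, rfl⟩))
      · obtain ⟨h, u, hu, rfl⟩ := Set.mem_iUnion.1 ht
        refine StarAlgebra.subset_adjoin ℂ L (Or.inr (Set.mem_iUnion.2 ⟨g * h, u, hu, ?_⟩))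
        ext k
        exact hα g h _)
    exact fun t ht => hle ht
  obtain ⟨c, hcT, hc, hTc⟩ := (isSeparable_adjoin hLc).exists_countable_dense_subset
  have h1c : ∃ e, e ∈ c := by
    rcases c.eq_empty_or_nonempty with h | h
    · have := hTc (one_mem T)
      simp [h] at this
    · exact h
  obtain ⟨d, hd⟩ := hc.exists_eq_range h1c
  have hdT : ∀ i, d i ∈ T := fun i => hcT (hd ▸ Set.mem_range_self i)
  obtain ⟨φ, hφ⟩ := exists_reindex hω d fun i => hθT _ (hdT i)
  set ψ : (ℕ →ᵇ A) →⋆ₐ[ℂ] AOmega A ω := (cls ω).comp (reindex φ)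
  have hψc : Continuous ψ := continuous_cls.comp (continuous_reindex φ)
  have dense : ∀ P : Set (ℕ →ᵇ A), IsClosed P → (∀ i, d i ∈ P) → ∀ t ∈ T, t ∈ P :=
    fun P hP hi t ht => closure_minimal (by rw [hd]; rintro _ ⟨i, rfl⟩; exact hi i) hP (hTc ht)
  have hnorm : ∀ t ∈ T, ‖ψ t‖ = ‖cls ω t‖ :=
    dense {t | ‖ψ t‖ = ‖cls ω t‖} (isClosed_eq hψc.norm continuous_cls.norm) fun i => (hφ i).1
  have hcen : ∀ t ∈ T, ψ t ∈ central A ω :=
    dense (ψ ⁻¹' central A ω) (isClosed_central.preimage hψc) fun i => (hφ i).2.1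
  have hcomm : ∀ t ∈ T, ∀ u ∈ T, Commute (ψ t) (cls ω u) := by
    intro t ht
    refine dense {u | Commute (ψ t) (cls ω u)}
      (isClosed_eq (continuous_const.fun_mul continuous_cls)
        (continuous_cls.fun_mul continuous_const)) ?_
    exact fun j => dense {t | Commute (ψ t) (cls ω (d j))}
      (isClosed_eq (hψc.fun_mul continuous_const) (continuous_const.fun_mul hψc))
      (fun i => (hφ i).2.2 j) t ht
  have hsT : ∀ z ∈ s, ∃ t ∈ T, cls ω t = z.1 := fun z hz =>
    ⟨lift z, StarAlgebra.subset_adjoin ℂ L (Or.inl ⟨z, hz, rfl⟩), hlift z⟩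
  obtain ⟨ι, hι⟩ := exists_copy_of T hsT ψ hnorm hcen
  have happ : ∀ x : Cl s, ∃ t : ℕ → ℕ →ᵇ A, (∀ k, t k ∈ T) ∧
      Tendsto (fun k => cls ω (t k)) atTop (𝓝 ((x : CentralAlgebra ω A) : AOmega A ω)) := by
    intro x
    have hle : Cl s ≤ ((T.map (cls ω)).topologicalClosure).comap (central A ω).subtype := by
      refine StarSubalgebra.topologicalClosure_minimal (StarAlgebra.adjoin_le ?_) ?_
      · intro z hz
        exact StarSubalgebra.le_topologicalClosure _ (hsT z hz)
      · exact (StarSubalgebra.isClosed_topologicalClosure _).preimage continuous_subtype_val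
    have hmem : ((x : CentralAlgebra ω A) : AOmega A ω) ∈ (T.map (cls ω)).topologicalClosure :=
      hle x.2
    rw [← SetLike.mem_coe, StarSubalgebra.topologicalClosure_coe, mem_closure_iff_seq_limit] at hmem
    obtain ⟨u, hu, hlim⟩ := hmem
    choose t ht htu using hu
    exact ⟨t, ht, by rwa [show (fun k => cls ω (t k)) = u from funext htu]⟩
  refine ⟨ι, fun x y => Subtype.ext ?_, fun g x y hxy => Subtype.ext ?_⟩
  · obtain ⟨t, ht, htx⟩ := happ x
    obtain ⟨u, hu, huy⟩ := happ y
    exact tendsto_nhds_unique ((hι x t ht htx).mul huy)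
      ((huy.mul (hι x t ht htx)).congr fun k => (hcomm _ (ht k) _ (hu k)).symm)
  · obtain ⟨t, ht, htx⟩ := happ x
    set f := omegaMap ω (α g).toStarAlgHom
    have hf : Continuous f := AddMonoidHomClass.continuous_of_bound f 1 fun w => by
      simpa using NonUnitalStarAlgHom.norm_apply_le f w
    rw [centralAct_coe]
    refine tendsto_nhds_unique ((hf.tendsto _).comp (hι x t ht htx)) ?_
    have hy : Tendsto (fun k => cls ω (seqMap (α g).toStarAlgHom (t k))) atTop
        (𝓝 ((y : CentralAlgebra ω A) : AOmega A ω)) := by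
      rw [← congrArg Subtype.val hxy]
      exact ((hf.tendsto _).comp htx).congr fun k => omegaMap_cls ω _ _
    refine (hι y _ (fun k => hinv g _ (ht k)) hy).congr fun k => ?_
    show cls ω _ = f (cls ω _)
    rw [omegaMap_cls]
    rfl

end

end Vale.Agent.P095.Amen
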