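import Vale.Agent.P095.Amen.Induction.Main

/-!
# P095: finite extensions, directed unions and elementary amenable groups
-/

namespace Vale.Agent.P095.Amen

open Filter Topology TopologicalSpace Vale.Agent.P101.KR Vale.Agent.P101.Bridge
  Vale.Agent.P095.Equiv

noncomputable section

variable {G : Type} [Group G] [Countable G]

/-- A finite quotient creates no characters. -/
theorem good_finite {F : Type} [CStarAlgebra F] {β : G → F →⋆ₐ[ℂ] F} (hact : IsAct β)
    (hcop : HasEquivCopies β) (N H : Subgroup G) (hNH : N ≤ H) {Q : Type} [Group Q] [Finite Q]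
    (f : H →* Q) (hf : Function.Surjective f) (hker : f.ker = N.subgroupOf H) (hN : Good β N) :
    Good β H := by
  classical
  have : Fintype Q := Fintype.ofFinite Q
  have hmem : ∀ h : H, f h = 1 ↔ (h : G) ∈ N := fun h => by
    rw [← MonoidHom.mem_ker, hker, Subgroup.mem_subgroupOf]
  have hnorm : ∀ h : H, ∀ n ∈ N, (h : G)⁻¹ * n * h ∈ N := fun h n hn => by
    have h1 : f (h⁻¹ * ⟨n, hNH hn⟩ * h) = 1 := by
      rw [map_mul, map_mul, (hmem ⟨n, hNH hn⟩).2 hn, mul_one, map_inv, inv_mul_cancel]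
    simpa using (hmem _).1 h1
  let lift : Q → H := Function.surjInv hf
  have hlift : ∀ q, f (lift q) = q := Function.surjInv_eq hf
  let βQ : Q → fixH β N →⋆ₐ[ℂ] fixH β N := fun q =>
    ((β (lift q : G)).comp (fixH β N).subtype).codRestrict _ fun x =>
      map_mem_fixH hact (hnorm _) x.2
  have hwd : ∀ h h' : H, f h = f h' → ∀ x ∈ fixH β N, β (h : G) x = β (h' : G) x :=
    fun h h' he x hx => by
    have h1 : ((h' : G)⁻¹ * h) ∈ N := by
      simpa using (hmem (h'⁻¹ * h)).1 (by rw [map_mul, map_inv, he, inv_mul_cancel])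
    conv_lhs => rw [show (h : G) = h' * ((h' : G)⁻¹ * h) by group, hact.mul, mem_fixH.1 hx _ h1]
  have hactQ : IsAct βQ := ⟨fun x => Subtype.ext ((hwd (lift 1) 1 (by rw [hlift, map_one]) _ x.2).trans
      (hact.one _)),
    fun q q' x => Subtype.ext ((hwd (lift (q * q')) (lift q * lift q')
      (by simp only [map_mul, hlift]) _ x.2).trans (hact.mul _ _ _))⟩
  have hcopQ : HasEquivCopies βQ := by
    intro s hs _
    set s' : Set F := ⋃ g, β g '' (Subtype.val '' s)
    have hs' : s'.Countable := Set.countable_iUnion fun g => (hs.image _).image _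
    have hmaps : ∀ g, Set.MapsTo (β g) s' s' := fun g y hy => by
      obtain ⟨k, z, hz, rfl⟩ := Set.mem_iUnion.1 hy
      exact Set.mem_iUnion.2 ⟨g * k, z, hz, hact.mul g k z⟩
    obtain ⟨κ, hκ, hκe⟩ := hcop s' hs' hmaps
    have hle : Cl s ≤ (Cl s').comap (fixH β N).subtype := by
      refine StarSubalgebra.topologicalClosure_minimal (StarAlgebra.adjoin_le fun z hz =>
        StarSubalgebra.le_topologicalClosure _ (StarAlgebra.subset_adjoin ℂ s'
          (Set.mem_iUnion.2 ⟨1, z.1, ⟨z, hz, rfl⟩, hact.one _⟩)))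
        ((isClosed_Cl s').preimage continuous_subtype_val)
    let incl : Cl s →⋆ₐ[ℂ] Cl s' :=
      ((fixH β N).subtype.comp (Cl s).subtype).codRestrict (Cl s') fun x => hle x.2
    have hfix : ∀ (i : ℕ) (x : Cl s), (κ i).comp incl x ∈ fixH β N := fun i x =>
      mem_fixH.2 fun g hg => hκe i g (incl x) (incl x) (mem_fixH.1 x.1.2 g hg)
    exact ⟨fun i => ((κ i).comp incl).codRestrict _ (hfix i),
      fun i j hij a b => Subtype.ext (hκ i j hij _ _),
      fun i q x y hxy => Subtype.ext (hκe i (lift q : G) (incl x) (incl y)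
        (congrArg Subtype.val hxy))⟩
  have hle : ∀ x : fixed βQ, (x : fixH β N).1 ∈ fixH β H := fun x => mem_fixH.2 fun h hh => by
    rw [hwd ⟨h, hh⟩ (lift (f ⟨h, hh⟩)) (hlift _).symm _ x.1.2]
    exact congrArg Subtype.val (Core.mem_fixed.1 x.2 (f ⟨h, hh⟩))
  exact ⟨fun χ => (core_of Q (fixH β N) βQ hactQ hcopQ hN).false
    (χ.comp (((fixH β N).subtype.comp (fixed βQ).subtype).codRestrict _ hle))⟩

/-- Dimension drop data in the fixed algebra of a subgroup without characters. -/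
theorem exists_dropData {F : Type} [CStarAlgebra F] {β : G → F →⋆ₐ[ℂ] F} (hact : IsAct β)
    (hcop : HasEquivCopies β) (N : Subgroup G) (hN : Good β N) :
    Nonempty (DropData (fixH β N)) := by
  obtain ⟨d⟩ := allDrops_of (fixH β N) (hasCopies_fixed hact hcop N) hN 2 le_rfl
  refine ⟨⟨d.P, d.v, ⟨d.orderZero.star_eq, fun a b c e => ?_, d.orderZero.pos⟩, ?_, d.fix_v⟩⟩
  · rw [d.orderZero.mul_eq, show diag d.P = diagN d.P from diag_eq_sum_univ d.P]
  · rw [d.star_mul_v, show diag d.P = diagN d.P from diag_eq_sum_univ d.P]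

/-- Bounds for dimension drop data. -/
theorem dropData_bounds {F : Type} [CStarAlgebra F] (d : DropData F) :
    (∀ a b, ‖d.P a b‖ ≤ 1) ∧ ‖d.v‖ ≤ 1 := by
  let _ : PartialOrder F := CStarAlgebra.spectralOrder F
  have : StarOrderedRing F := CStarAlgebra.spectralOrderedRing F
  have hnn : ∀ a, 0 ≤ d.P a a := fun a => by
    obtain ⟨c, hc⟩ := d.orderZero.pos a
    rw [hc]; exact star_mul_self_nonneg c
  have hh0 : 0 ≤ diag d.P := add_nonneg (hnn 0) (hnn 1)
  have hv0 : 0 ≤ 1 - diag d.P := d.star_mul_v ▸ star_mul_self_nonneg d.v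
  have hsq : ∀ c : F, ‖star c * c‖ ≤ 1 → ‖c‖ ≤ 1 := fun c hc => by
    rw [CStarRing.norm_star_mul_self] at hc
    nlinarith [norm_nonneg c]
  have hdle : ∀ a, d.P a a ≤ 1 := fun a => by
    refine le_trans ?_ (sub_nonneg.1 hv0)
    fin_cases a
    · exact le_add_of_nonneg_right (hnn 1)
    · exact le_add_of_nonneg_left (hnn 0)
  have hdn : ∀ a, ‖d.P a a‖ ≤ 1 := fun a =>
    (CStarAlgebra.norm_le_one_iff_of_nonneg _ (hnn a)).2 (hdle a)
  refine ⟨fun a b => hsq _ ?_, hsq _ ?_⟩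
  · rw [d.orderZero.star_eq, d.orderZero.mul_eq, if_pos rfl]
    exact (norm_mul_le _ _).trans (mul_le_one₀
      ((CStarAlgebra.norm_le_one_iff_of_nonneg _ hh0).2 (sub_nonneg.1 hv0)) (norm_nonneg _) (hdn b))
  · rw [d.star_mul_v]
    exact (CStarAlgebra.norm_le_one_iff_of_nonneg _ hv0).2 (sub_le_self _ hh0)

/-- Relations of five elements which exclude characters. -/
def dropRels : List (Term 5) :=
  let h : Term 5 := .add (.var 0) (.var 3)
  let neg : Term 5 → Term 5 := .smul (-1)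
  [.mul (.var 1) (.var 1), .add (.mul (.var 1) (.var 2)) (neg (.mul h (.var 0))),
    .add (.mul (.var 0) (.var 0)) (neg (.mul h (.var 0))),
    .add (.mul (.var 2) (.var 1)) (neg (.mul h (.var 3))),
    .add (.mul (.var 3) (.var 3)) (neg (.mul h (.var 3))),
    .add (.mul (.var 0) (.var 4)) (neg (.var 4)),
    .add (.mul (.adj (.var 4)) (.var 4)) (.add (neg .one) h)]

theorem dropRels_data {F : Type} [CStarAlgebra F] (d : DropData F) :
    ∀ r ∈ dropRels, r.eval ![d.P 0 0, d.P 0 1, d.P 1 0, d.P 1 1, d.v] = 0 := by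
  have h := d.orderZero.mul_eq
  simp only [dropRels, List.forall_mem_cons, List.not_mem_nil, IsEmpty.forall_iff, implies_true,
    and_true]
  refine ⟨?_, ?_, ?_, ?_, ?_, ?_, ?_⟩ <;>
    simp [Term.eval, h, diag, d.star_mul_v, d.fix_v]

theorem noCharacter_of_rels {F : Type} [CStarAlgebra F] (x : Fin 5 → F)
    (hx : ∀ r ∈ dropRels, r.eval x = 0) : IsEmpty (F →⋆ₐ[ℂ] ℂ) := by
  refine ⟨fun χ => ?_⟩
  have h := fun r hr => (Term.eval_map χ r x).symm.trans ((congrArg χ (hx r hr)).trans (map_zero χ))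
  simp only [dropRels, List.forall_mem_cons, List.not_mem_nil, IsEmpty.forall_iff, implies_true,
    and_true] at h
  simp only [Term.eval, neg_one_smul] at h
  obtain ⟨h1, h2, h3, h4, h5, h6, h7⟩ := h
  have h01 : χ (x 1) = 0 := mul_self_eq_zero.1 h1
  rw [h01, zero_mul, zero_add, neg_eq_zero] at h2
  rw [h2, neg_zero, add_zero, mul_self_eq_zero] at h3
  rw [h01, mul_zero, zero_add, neg_eq_zero] at h4
  rw [h4, neg_zero, add_zero, mul_self_eq_zero] at h5
  rw [h3, zero_mul, zero_add, neg_eq_zero] at h6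
  rw [h3, h5, h6] at h7
  norm_num at h7

theorem exists_rels {E : Type} [CStarAlgebra E] (d : DropData E) :
    ∃ y : Fin 5 → E, (∀ i, ‖y i‖ ≤ 1) ∧ ∀ r ∈ dropRels, r.eval y = 0 := by
  obtain ⟨hP, hv⟩ := dropData_bounds d
  refine ⟨![d.P 0 0, d.P 0 1, d.P 1 0, d.P 1 1, d.v], fun i => ?_, dropRels_data d⟩
  fin_cases i <;> first | exact hP _ _ | exact hv

theorem rels_map {E B : Type} [CStarAlgebra E] [CStarAlgebra B] (e : E →⋆ₐ[ℂ] B)
    (y : Fin 5 → E) (hy : ∀ i, ‖y i‖ ≤ 1) (hr : ∀ r ∈ dropRels, r.eval y = 0) :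
    ∃ x : Fin 5 → B, (∀ i, ‖e (y i)‖ ≤ 1 ∧ x i = e (y i)) ∧
      ∀ r ∈ dropRels, (r.eval fun i => e (y i)) = 0 :=
  ⟨fun i => e (y i), fun i => ⟨(NonUnitalStarAlgHom.norm_apply_le e _).trans (hy i), rfl⟩,
    fun r h => by rw [← Term.eval_map e, hr r h, map_zero]⟩

theorem noChar_of_injective {E B : Type} [CStarAlgebra E] [CStarAlgebra B] (e : E →⋆ₐ[ℂ] B)
    (he : Function.Injective e) (x : Fin 5 → E)
    (hr : ∀ r ∈ dropRels, (r.eval fun i => e (x i)) = 0) : IsEmpty (E →⋆ₐ[ℂ] ℂ) :=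
  noCharacter_of_rels x fun r h => he (by rw [Term.eval_map e, hr r h, map_zero])

variable {A : Type} [CStarAlgebra A] [SeparableSpace A] {ω : Ultrafilter ℕ}
  (hω : (ω : Filter ℕ) ≤ cofinite) {α : G → A ≃⋆ₐ[ℂ] A}
  (hα : ∀ g h a, α (g * h) a = α g (α h a))

omit [SeparableSpace A] [Countable G] in
/-- Fixed dimension drop data, read in the ultrapower. -/
theorem dropRels_omega (K : Subgroup G) (d : DropData (fixH (centralAct ω α) K)) :
    ∃ x : Fin 5 → AOmega A ω, (∀ i, ‖x i‖ ≤ 1) ∧ (∀ r ∈ dropRels, r.eval x = 0) ∧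
      (∀ i, x i ∈ central A ω) ∧
      ∀ i, ∀ g ∈ K, omegaMap ω (α g).toStarAlgHom (x i) = x i := by
  obtain ⟨y, hy, hyr⟩ := exists_rels d
  obtain ⟨x, hx, hxr⟩ := rels_map (toOmega α K) y hy hyr
  exact ⟨fun i => toOmega α K (y i), fun i => (hx i).1, hxr, fun i => (y i).1.2,
    fun i g hg => congrArg Subtype.val (mem_fixH.1 (y i).2 g hg)⟩

omit [SeparableSpace A] [Countable G] in
/-- A solution in the ultrapower gives the relations in the fixed algebra. -/
theorem good_of_omega (H : Subgroup G) (x : Fin 5 → AOmega A ω)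
    (hr : ∀ r ∈ dropRels, r.eval x = 0) (hc : ∀ i, x i ∈ central A ω)
    (hJ : ∀ i, ∀ g ∈ H, omegaMap ω (α g).toStarAlgHom (x i) = x i) :
    Good (centralAct ω α) H :=
  noChar_of_injective (toOmega α H) (fun _ _ h => Subtype.ext (Subtype.ext h))
    (fun i => ⟨⟨x i, hc i⟩, mem_fixH.2 fun h hh => Subtype.ext (hJ i h hh)⟩) hr

include hω hα

/-- Directed unions create no characters. -/
theorem good_union (H : Subgroup G)
    (hcov : ∀ T : Finset H, ∃ K : Subgroup G, (∀ h ∈ T, (h : G) ∈ K) ∧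
      Good (centralAct ω α) K) : Good (centralAct ω α) H := by
  have hact := isAct_centralAct (ω := ω) α hα
  have hcop := hasEquivCopies hω α hα
  obtain ⟨x, hxr, hxc, hxJ⟩ := saturate_central hω (fun h : H => (α (h : G)).toStarAlgHom)
    (fun _ : Fin 5 => Set.univ) dropRels 1 fun ε hε T => by
    obtain ⟨K, hTK, hK⟩ := hcov T
    obtain ⟨d⟩ := exists_dropData hact hcop K hK
    obtain ⟨y, hy, hyr, hyc, hyJ⟩ := dropRels_omega K d
    refine ⟨y, hy, fun r hr => ?_, hyc, fun i h _ hh => ?_⟩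
    · rw [hyr r hr, norm_zero]
      exact hε.le
    · rw [hyJ i h (hTK h hh), sub_self, norm_zero]
      exact hε.le
  exact good_of_omega H x hxr hxc fun i g hg => hxJ i ⟨g, hg⟩ trivial

end

end Vale.Agent.P095.Amen
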