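import Vale.Agent.P095.Amen.Induction.Classes

/-!
# P095: fixed central maps for actions of elementary amenable groups, from the case of one
automorphism
-/

namespace Vale.Agent.P095.Amen

open Filter Topology TopologicalSpace Vale.Agent.P101.KR Vale.Agent.P101.Bridge
  Vale.Agent.P095.Equiv

noncomputable section

variable {G : Type} [Group G] [Countable G] {A : Type} [CStarAlgebra A] [SeparableSpace A]
  {ω : Ultrafilter ℕ} (hω : (ω : Filter ℕ) ≤ cofinite) {α : G → A ≃⋆ₐ[ℂ] A}
  (hα : ∀ g h a, α (g * h) a = α g (α h a))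

include hω hα

/-- The kernel stage of the abelian case. -/
theorem good_abelian_stage (hZ : ZCoreTarget) (H : Subgroup G) {Q : Type} [Group Q]
    (hQ : ∀ a b : Q, a * b = b * a) (f : H →* Q)
    (hN : Good (centralAct ω α) (f.ker.map H.subtype)) (T : Finset H) :
    ∃ K : Subgroup H, f.ker ≤ K ∧ ↑T ⊆ (K : Set H) ∧
      Good (centralAct ω α) (K.map H.subtype) := by
  classical
  induction T using Finset.induction_on with
  | empty => exact ⟨f.ker, le_rfl, by simp, hN⟩
  | insert a T _ ih =>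
    obtain ⟨K, hK, hT, hgood⟩ := ih
    have hnorm : ∀ b k : H, k ∈ K → b * k * b⁻¹ ∈ K := fun b k hk => by
      have h1 : b * k * b⁻¹ * k⁻¹ ∈ K := hK (MonoidHom.mem_ker.2 (by
        simp only [map_mul, map_inv]
        rw [hQ (f b) (f k), mul_inv_cancel_right, mul_inv_cancel]))
      simpa using K.mul_mem h1 hk
    refine ⟨K ⊔ Subgroup.zpowers a, hK.trans le_sup_left, ?_, ?_⟩
    · rw [Finset.coe_insert, Set.insert_subset_iff]
      exact ⟨Subgroup.mem_sup_right (Subgroup.mem_zpowers a),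
        fun x hx => Subgroup.mem_sup_left (hT hx)⟩
    · rw [Subgroup.map_sup, MonoidHom.map_zpowers]
      refine good_step hω hα hZ _ (a : G) ?_ ?_ hgood
      · rintro _ ⟨k, hk, rfl⟩
        exact ⟨a⁻¹ * k * a, by simpa using hnorm a⁻¹ k hk, by simp⟩
      · rintro _ ⟨k, hk, rfl⟩
        exact ⟨a * k * a⁻¹, hnorm a k hk, by simp⟩

/-- Quotients in the class create no characters. -/
theorem good_of_isEA (hZ : ZCoreTarget) {Q : Type} [Group Q] (hQ : IsEA Q) :
    ∀ (N H : Subgroup G), N ≤ H → ∀ f : H →* Q, Function.Surjective f → f.ker = N.subgroupOf H →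
      Good (centralAct ω α) N → Good (centralAct ω α) H := by
  induction hQ with
  | finite Q =>
    exact fun N H hNH f hf hker hN =>
      good_finite (isAct_centralAct α hα) (hasEquivCopies hω α hα) N H hNH f hf hker hN
  | abelian Q hab =>
    intro N H hNH f hf hker hN
    refine good_union hω hα H fun T => ?_
    obtain ⟨K, -, hT, hK⟩ := good_abelian_stage hω hα hZ H hab f
      (by rwa [hker, Subgroup.subgroupOf_map_subtype, inf_eq_left.2 hNH]) T
    exact ⟨K.map H.subtype, fun h hh => ⟨h, hT hh, rfl⟩, hK⟩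
  | extension Q M _ _ ihM ihQ =>
    intro N H hNH f hf hker hN
    let K : Subgroup H := M.comap f
    set K' : Subgroup G := K.map H.subtype with hK'
    have hmem : ∀ x : K', ∃ k : H, f k ∈ M ∧ (k : G) = x := fun x => by
      obtain ⟨k, hk, hkx⟩ := x.2
      exact ⟨k, hk, hkx⟩
    have hK'H : K' ≤ H := Subgroup.map_subtype_le K
    have hfK : ∀ x : K', f (Subgroup.inclusion hK'H x) ∈ M := fun x => by
      obtain ⟨k, hk, hkx⟩ := hmem x
      rwa [show Subgroup.inclusion hK'H x = k from Subtype.ext hkx.symm]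
    let g : K' →* M := (f.comp (Subgroup.inclusion hK'H)).codRestrict M hfK
    have hN1 : ∀ x : H, f x = 1 ↔ (x : G) ∈ N := fun x => by
      rw [← MonoidHom.mem_ker, hker, Subgroup.mem_subgroupOf]
    have hNK : N ≤ K' := fun n hn => ⟨⟨n, hNH hn⟩, by
      show f ⟨n, hNH hn⟩ ∈ M
      rw [(hN1 _).2 hn]; exact M.one_mem, rfl⟩
    have hg : Function.Surjective g := fun m => by
      obtain ⟨x, hx⟩ := hf m.1
      exact ⟨⟨x, x, show f x ∈ M from hx ▸ m.2, rfl⟩, Subtype.ext hx⟩
    have hgker : g.ker = N.subgroupOf K' := by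
      ext x
      rw [MonoidHom.mem_ker, Subgroup.mem_subgroupOf]
      exact Subtype.ext_iff.trans (hN1 (Subgroup.inclusion hK'H x))
    refine ihQ K' H hK'H ((QuotientGroup.mk' M).comp f)
      ((QuotientGroup.mk'_surjective M).comp hf) ?_ (ihM N K' hNK g hg hgker hN)
    ext x
    rw [MonoidHom.mem_ker, Subgroup.mem_subgroupOf]
    show ((f x : Q) : Q ⧸ M) = 1 ↔ _
    rw [QuotientGroup.eq_one_iff]
    exact ⟨fun h => ⟨x, h, rfl⟩, fun ⟨k, hk, hkx⟩ =>
      (Subtype.ext hkx : k = x) ▸ hk⟩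
  | union Q M hcov _ ih =>
    intro N H hNH f hf hker hN
    classical
    refine good_union hω hα H fun T => ?_
    obtain ⟨i, hi⟩ := hcov (T.image f)
    set K' : Subgroup G := ((M i).comap f).map H.subtype
    have hK'H : K' ≤ H := Subgroup.map_subtype_le _
    have hfK : ∀ x : K', f (Subgroup.inclusion hK'H x) ∈ M i := fun x => by
      obtain ⟨k, hk, hkx⟩ := x.2
      rwa [show Subgroup.inclusion hK'H x = k from Subtype.ext hkx.symm]
    let g : K' →* M i := (f.comp (Subgroup.inclusion hK'H)).codRestrict (M i) hfK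
    have hN1 : ∀ x : H, f x = 1 ↔ (x : G) ∈ N := fun x => by
      rw [← MonoidHom.mem_ker, hker, Subgroup.mem_subgroupOf]
    have hNK : N ≤ K' := fun n hn => ⟨⟨n, hNH hn⟩, by
      show f ⟨n, hNH hn⟩ ∈ M i
      rw [(hN1 _).2 hn]; exact (M i).one_mem, rfl⟩
    refine ⟨K', fun h hh => ⟨h, show f h ∈ M i from hi (Finset.mem_coe.2
      (Finset.mem_image_of_mem f hh)), rfl⟩, ih i N K' hNK g (fun m => ?_) ?_ hN⟩
    · obtain ⟨x, hx⟩ := hf m.1
      exact ⟨⟨x, x, show f x ∈ M i from hx ▸ m.2, rfl⟩, Subtype.ext hx⟩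
    · ext x
      rw [MonoidHom.mem_ker, Subgroup.mem_subgroupOf]
      exact Subtype.ext_iff.trans (hN1 (Subgroup.inclusion hK'H x))

omit hω hα

/-- Local maps into the fixed algebra of a subgroup without characters. -/
theorem localMap_of_good {F : Type} [CStarAlgebra F] {β : G → F →⋆ₐ[ℂ] F} (hact : IsAct β)
    (hcop : HasEquivCopies β) (H : Subgroup G) (hgood : Good β H) {D : Type} [CStarAlgebra D]
    (hD : IsJiangSu D) (P : Finset D) {ε : ℝ} (hε : 0 < ε) :
    ∃ S : StarSubalgebra ℂ D, IsClosed (S : Set D) ∧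
      (∃ ρ : S →⋆ₐ[ℂ] F, ∀ g ∈ H, ∀ y, β g (ρ y) = ρ y) ∧ ∀ x ∈ P, ∃ y ∈ S, ‖x - y‖ ≤ ε := by
  obtain ⟨n, hne, hn, ι, hι, hG'⟩ := hD.locallyDrop P ε hε
  obtain ⟨d⟩ := allDrops_of (fixH β H) (hasCopies_fixed hact hcop H) hgood n hn
  obtain ⟨f⟩ := dropHom_of n (fixH β H) d
  refine ⟨ι.range, (NonUnitalStarAlgHom.isometry ι hι).isClosedEmbedding.isClosed_range,
    ⟨(fixH β H).subtype.comp (f.comp (StarAlgEquiv.ofInjective ι hι).symm.toStarAlgHom),
      fun g hg y => mem_fixH.1 (f ((StarAlgEquiv.ofInjective ι hι).symm y)).2 g hg⟩,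
    fun x hx => ?_⟩
  obtain ⟨y, hy⟩ := hG' x hx
  exact ⟨ι y, ⟨y, rfl⟩, hy⟩

include hω hα

/-- All of an elementary amenable group creates no characters. -/
theorem good_top (hZ : ZCoreTarget) (hG : IsEA G) (hchar : NoCharacter (CentralAlgebra ω A)) :
    Good (centralAct ω α) (⊤ : Subgroup G) := by
  refine good_of_isEA hω hα hZ hG ⊥ ⊤ bot_le (⊤ : Subgroup G).subtype
    (fun g => ⟨⟨g, Subgroup.mem_top g⟩, rfl⟩) ?_ (good_bot (isAct_centralAct α hα) hchar)
  ext x
  simp

omit hω hα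

/-- A fixed central map from `D`, for every action of an elementary amenable group, from the case
of one automorphism. -/
theorem fixedMapEA_of (hZ : ZCoreTarget) : FixedMapEATarget := by
  intro G _ _ hG A _ _ ω hω hchar α hα D _ hD
  have := hD.separable
  refine localFixed A D ω hω α fun T P ε hε => ?_
  obtain ⟨S, hS, ⟨ρ, hρ⟩, hP⟩ := localMap_of_good (isAct_centralAct α hα) (hasEquivCopies hω α hα) ⊤
    (good_top hω hα hZ hG hchar) hD P hε
  exact ⟨S, hS, ⟨ρ, fun g _ y => hρ g (Subgroup.mem_top g) y⟩, hP⟩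

end

end Vale.Agent.P095.Amen
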