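import Vale.Agent.P095.Amen.Induction.EA
import Vale.Agent.P095.Equiv.OuterFinite

/-!
# P095: actions that are elementary amenable modulo inner automorphisms
-/

namespace Vale.Agent.P095.Amen

open Filter Topology TopologicalSpace Vale.Agent.P101.KR Vale.Agent.P101.Bridge
  Vale.Agent.P095.Equiv

noncomputable section

/-- Inner automorphisms fix the central algebra, so their subgroup creates no characters. -/
theorem good_ker_of_inner {G A Q : Type} [Group G] [Group Q] [CStarAlgebra A] (ω : Ultrafilter ℕ)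
    (α : G → A ≃⋆ₐ[ℂ] A) (hα : ∀ g h a, α (g * h) a = α g (α h a)) (f : G →* Q)
    (hin : ∀ g, f g = 1 → ∃ u : A, star u * u = 1 ∧ u * star u = 1 ∧
      ∀ a, α g a = u * a * star u)
    (hF : NoCharacter (CentralAlgebra ω A)) : Good (centralAct ω α) f.ker := by
  have h1 : ∀ a, α 1 a = a := fun a => by
    have h := hα 1 1 a
    rw [one_mul] at h
    exact EquivLike.injective (α 1) h.symm
  refine ⟨fun χ => hF.false (χ.comp
    ((StarAlgHom.id ℂ (CentralAlgebra ω A)).codRestrict (fixH (centralAct ω α) f.ker) fun x => ?_))⟩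
  refine mem_fixH.2 fun g hg => ?_
  obtain ⟨u, -, huu, hu⟩ := hin g (MonoidHom.mem_ker.1 hg)
  rw [centralAct_eq_of_inner ω α (s := 1) huu fun a => by rw [h1, hu a]]
  exact (isAct_centralAct α hα).one x

/-- A fixed central map from `D`, for every action elementary amenable modulo inner
automorphisms, from the case of one automorphism. -/
theorem fixedMap_outerEA (hZ : ZCoreTarget) {G : Type} [Group G] [Countable G] {Q : Type} [Group Q]
    (hQ : IsEA Q) (f : G →* Q) (hf : Function.Surjective f) (A : Type) [CStarAlgebra A]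
    [SeparableSpace A] (ω : Ultrafilter ℕ) (hω : (ω : Filter ℕ) ≤ cofinite)
    (hchar : NoCharacter (CentralAlgebra ω A)) (α : G → A ≃⋆ₐ[ℂ] A)
    (hα : ∀ g h a, α (g * h) a = α g (α h a))
    (hin : ∀ g, f g = 1 → ∃ u : A, star u * u = 1 ∧ u * star u = 1 ∧
      ∀ a, α g a = u * a * star u) (D : Type) [CStarAlgebra D] (hD : IsJiangSu D) :
    ∃ ψ : D →⋆ₐ[ℂ] CentralAlgebra ω A, ∀ g d, centralAct ω α g (ψ d) = ψ d := by
  have := hD.separable
  have hgood : Good (centralAct ω α) (⊤ : Subgroup G) := by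
    refine good_of_isEA hω hα hZ hQ f.ker ⊤ le_top (f.comp (⊤ : Subgroup G).subtype)
      (fun q => ?_) ?_ (good_ker_of_inner ω α hα f hin hchar)
    · obtain ⟨g, hg⟩ := hf q
      exact ⟨⟨g, Subgroup.mem_top g⟩, hg⟩
    · ext x
      rfl
  refine localFixed A D ω hω α fun T P ε hε => ?_
  obtain ⟨S, hS, ⟨ρ, hρ⟩, hP⟩ := localMap_of_good (isAct_centralAct α hα) (hasEquivCopies hω α hα) ⊤
    hgood hD P hε
  exact ⟨S, hS, ⟨ρ, fun g _ y => hρ g (Subgroup.mem_top g) y⟩, hP⟩

end

end Vale.Agent.P095.Amen
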