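import Vale.Agent.P095.Amen.Induction.Saturate
import Vale.Agent.P095.Amen.Targets
import Vale.Agent.P095.Equiv.FixedMap

/-!
# P095: the fixed algebra of a subgroup and one more automorphism
-/

namespace Vale.Agent.P095.Amen

open Filter Topology TopologicalSpace Vale.Agent.P101.KR Vale.Agent.P101.Bridge
  Vale.Agent.P095.Equiv

noncomputable section

variable {G : Type} [Group G] {F : Type} [CStarAlgebra F]

/-- The algebra fixed by a subgroup. -/
abbrev fixH (β : G → F →⋆ₐ[ℂ] F) (H : Subgroup G) : StarSubalgebra ℂ F :=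
  fixed fun h : H => β h

/-- A subgroup creates no characters. -/
def Good (β : G → F →⋆ₐ[ℂ] F) (H : Subgroup G) : Prop := IsEmpty (fixH β H →⋆ₐ[ℂ] ℂ)

instance isClosed_fixH (β : G → F →⋆ₐ[ℂ] F) (H : Subgroup G) :
    IsClosed (fixH β H : Set F) := Core.isClosed_fixed _

theorem mem_fixH {β : G → F →⋆ₐ[ℂ] F} {H : Subgroup G} {x : F} :
    x ∈ fixH β H ↔ ∀ h ∈ H, β h x = x :=
  Core.mem_fixed.trans Subtype.forall

theorem fixH_anti {β : G → F →⋆ₐ[ℂ] F} {H K : Subgroup G} (h : H ≤ K) : fixH β K ≤ fixH β H :=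
  fun _ hx => mem_fixH.2 fun g hg => mem_fixH.1 hx g (h hg)

theorem good_mono {β : G → F →⋆ₐ[ℂ] F} {H K : Subgroup G} (h : H ≤ K) (hK : Good β K) :
    Good β H :=
  ⟨fun χ => hK.false (χ.comp (StarSubalgebra.inclusion (fixH_anti h)))⟩

theorem good_bot {β : G → F →⋆ₐ[ℂ] F} (hact : IsAct β) (hF : NoCharacter F) : Good β ⊥ := by
  refine ⟨fun χ => hF.false (χ.comp ((StarAlgHom.id ℂ F).codRestrict (fixH β ⊥) fun x => ?_))⟩
  exact mem_fixH.2 fun h hh => by rw [Subgroup.mem_bot.1 hh]; exact hact.one x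

/-- An element normalising `N` maps the fixed algebra of `N` to itself. -/
theorem map_mem_fixH {β : G → F →⋆ₐ[ℂ] F} (hact : IsAct β) {N : Subgroup G} {t : G}
    (ht : ∀ n ∈ N, t⁻¹ * n * t ∈ N) {x : F} (hx : x ∈ fixH β N) : β t x ∈ fixH β N := by
  refine mem_fixH.2 fun n hn => ?_
  rw [← hact.mul, show n * t = t * (t⁻¹ * n * t) by group, hact.mul,
    mem_fixH.1 hx _ (ht n hn)]

/-- The automorphism of the fixed algebra of `N` given by a normalising element. -/
def autH {β : G → F →⋆ₐ[ℂ] F} (hact : IsAct β) (N : Subgroup G) (t : G)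
    (ht : ∀ n ∈ N, t⁻¹ * n * t ∈ N) (ht' : ∀ n ∈ N, t * n * t⁻¹ ∈ N) :
    fixH β N ≃⋆ₐ[ℂ] fixH β N :=
  StarAlgEquiv.ofAlgEquiv
    (AlgEquiv.ofAlgHom
      (((β t).comp (fixH β N).subtype).codRestrict _ fun x => map_mem_fixH hact ht x.2).toAlgHom
      (((β t⁻¹).comp (fixH β N).subtype).codRestrict _ fun x =>
        map_mem_fixH hact (by simpa using ht') x.2).toAlgHom
      (AlgHom.ext fun x => Subtype.ext (show β t (β t⁻¹ x) = x by
        rw [← hact.mul, mul_inv_cancel, hact.one]))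
      (AlgHom.ext fun x => Subtype.ext (show β t⁻¹ (β t x) = x by
        rw [← hact.mul, inv_mul_cancel, hact.one])))
    fun x => Subtype.ext (map_star (β t) (x : F))

theorem autH_coe {β : G → F →⋆ₐ[ℂ] F} (hact : IsAct β) (N : Subgroup G) (t : G)
    (ht : ∀ n ∈ N, t⁻¹ * n * t ∈ N) (ht' : ∀ n ∈ N, t * n * t⁻¹ ∈ N) (x : fixH β N) :
    (autH hact N t ht ht' x : F) = β t x := rfl

/-- The fixed algebra of a subgroup keeps the copies, equivariantly. -/
theorem exists_eCopies [Countable G] {β : G → F →⋆ₐ[ℂ] F} (hact : IsAct β)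
    (hcop : HasEquivCopies β) (N : Subgroup G) (t : G) (σ : fixH β N ≃⋆ₐ[ℂ] fixH β N)
    (hσ : ∀ x : fixH β N, (σ x : F) = β t x) (s : Set (fixH β N)) (hs : s.Countable) :
    Nonempty (ECopies σ s ℕ) := by
  set s₀ : Set F := Subtype.val '' s
  set s' : Set F := ⋃ g, β g '' s₀
  have hs' : s'.Countable := Set.countable_iUnion fun g => (hs.image _).image _
  have hmaps : ∀ g, Set.MapsTo (β g) s' s' := fun g y hy => by
    obtain ⟨k, z, hz, rfl⟩ := Set.mem_iUnion.1 hy
    exact Set.mem_iUnion.2 ⟨g * k, z, hz, hact.mul g k z⟩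
  obtain ⟨κ, hκ, hκe⟩ := hcop s' hs' hmaps
  have hle : Cl s ≤ (Cl s').comap (fixH β N).subtype := by
    refine StarSubalgebra.topologicalClosure_minimal (StarAlgebra.adjoin_le fun z hz =>
      StarSubalgebra.le_topologicalClosure _ (StarAlgebra.subset_adjoin ℂ s'
        (Set.mem_iUnion.2 ⟨1, z.1, ⟨z, hz, rfl⟩, hact.one _⟩)))
      ((isClosed_Cl s').preimage continuous_subtype_val)
  let incl : Cl s →⋆ₐ[ℂ] Cl s' :=
    ((fixH β N).subtype.comp (Cl s).subtype).codRestrict (Cl s') fun x => hle x.2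
  have hfix : ∀ (i : ℕ) (x : Cl s), (κ i).comp incl x ∈ fixH β N := fun i x =>
    mem_fixH.2 fun g hg => hκe i g (incl x) (incl x) (mem_fixH.1 x.1.2 g hg)
  exact ⟨{
    hom := fun i => ((κ i).comp incl).codRestrict _ (hfix i)
    comm := fun i j hij a b => Subtype.ext (hκ i j hij _ _)
    equiv := fun i x y hxy => Subtype.ext (by
      rw [hσ]
      exact hκe i t (incl x) (incl y) (by
        show β t (x : fixH β N) = ((y : fixH β N) : F)
        rw [← hσ, hxy])) }⟩

end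

end Vale.Agent.P095.Amen
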