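import Vale.Agent.P095.Amen.Induction.Central
import Vale.Agent.P095.Amen.Induction.Step

/-!
# P095: actions of elementary amenable groups have fixed central maps, from the case of one
automorphism
-/

namespace Vale.Agent.P095.Amen

open Filter Topology TopologicalSpace Vale.Agent.P101.KR Vale.Agent.P101.Bridge
  Vale.Agent.P095.Equiv

noncomputable section

variable {G : Type} [Group G] [Countable G] {A : Type} [CStarAlgebra A] [SeparableSpace A]
  {ω : Ultrafilter ℕ} (hω : (ω : Filter ℕ) ≤ cofinite) {α : G → A ≃⋆ₐ[ℂ] A}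
  (hα : ∀ g h a, α (g * h) a = α g (α h a))

omit [Countable G] in
/-- An algebra embedded as the central elements fixed by countably many maps is saturated. -/
theorem saturated_of_embedding {E : Type} [CStarAlgebra E] (hω : (ω : Filter ℕ) ≤ cofinite)
    (σ : E ≃⋆ₐ[ℂ] E) (ν : E →⋆ₐ[ℂ] AOmega A ω) (hν : Function.Injective ν) {ι : Type}
    [Countable ι] (g : ι → A →⋆ₐ[ℂ] A) (f : A →⋆ₐ[ℂ] A)
    (hc : ∀ x, ν x ∈ central A ω) (hg : ∀ x j, omegaMap ω (g j) (ν x) = ν x)
    (hf : ∀ x, omegaMap ω f (ν x) = ν (σ x))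
    (hrange : ∀ z ∈ central A ω, (∀ j, omegaMap ω (g j) z = z) → ∃ x, ν x = z) :
    Saturated σ := by
  intro k I rels C h
  let J : Fin k → Set (Option ι) := fun i => {o | o = none → i ∈ I}
  obtain ⟨z, hzr, hzc, hzJ⟩ := saturate_central hω (fun o => o.elim f g) J rels C fun ε hε T => by
    obtain ⟨x, hxC, hxr, hxI⟩ := h ε hε
    refine ⟨fun i => ν (x i), fun i => (NonUnitalStarAlgHom.norm_apply_le ν _).trans (hxC i),
      fun r hr => ?_, fun i => hc _, fun i o ho _ => ?_⟩
    · rw [← Term.eval_map ν]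
      exact (NonUnitalStarAlgHom.norm_apply_le ν _).trans (hxr r hr)
    · cases o with
      | none =>
        show ‖omegaMap ω f (ν (x i)) - ν (x i)‖ ≤ ε
        rw [hf, ← map_sub]
        exact (NonUnitalStarAlgHom.norm_apply_le ν _).trans (hxI i (ho rfl))
      | some j =>
        show ‖omegaMap ω (g j) (ν (x i)) - ν (x i)‖ ≤ ε
        rw [hg, sub_self, norm_zero]
        exact hε.le
  choose x hx using fun i =>
    hrange (z i) (hzc i) fun j => hzJ i (some j) (fun h => by simp at h)
  refine ⟨x, fun r hr => hν ?_, fun i hi => hν ?_⟩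
  · rw [Term.eval_map ν, map_zero]
    simpa only [hx] using hzr r hr
  · rw [← hf, hx]
    exact hzJ i none fun _ => hi

/-- An equivariant central copy gives one in a fixed algebra. -/
theorem central_fixH_of {F : Type} [CStarAlgebra F] {β : G → F →⋆ₐ[ℂ] F} (hact : IsAct β)
    (hc : ∀ s : Set F, s.Countable → (∀ g, Set.MapsTo (β g) s s) →
      ∃ ι : Cl s →⋆ₐ[ℂ] F, (∀ x y : Cl s, Commute (ι x) (y : F)) ∧
        ∀ g (x y : Cl s), β g x = y → β g (ι x) = ι y)
    (N : Subgroup G) : HasCentralCopy (fixH β N) := by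
  intro s hs
  set s' : Set F := ⋃ g, β g '' (Subtype.val '' s)
  have hs' : s'.Countable := Set.countable_iUnion fun g => (hs.image _).image _
  have hmaps : ∀ g, Set.MapsTo (β g) s' s' := fun g y hy => by
    obtain ⟨k, z, hz, rfl⟩ := Set.mem_iUnion.1 hy
    exact Set.mem_iUnion.2 ⟨g * k, z, hz, hact.mul g k z⟩
  obtain ⟨κ, hκ, hκe⟩ := hc s' hs' hmaps
  have hle : Cl s ≤ (Cl s').comap (fixH β N).subtype := by
    refine StarSubalgebra.topologicalClosure_minimal (StarAlgebra.adjoin_le fun z hz =>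
      StarSubalgebra.le_topologicalClosure _ (StarAlgebra.subset_adjoin ℂ s'
        (Set.mem_iUnion.2 ⟨1, z.1, ⟨z, hz, rfl⟩, hact.one _⟩)))
      ((isClosed_Cl s').preimage continuous_subtype_val)
  let incl : Cl s →⋆ₐ[ℂ] Cl s' :=
    ((fixH β N).subtype.comp (Cl s).subtype).codRestrict (Cl s') fun x => hle x.2
  have hfix : ∀ x : Cl s, κ.comp incl x ∈ fixH β N := fun x =>
    mem_fixH.2 fun g hg => hκe g (incl x) (incl x) (mem_fixH.1 x.1.2 g hg)
  exact ⟨(κ.comp incl).codRestrict _ hfix, fun x y => Subtype.ext (hκ (incl x) (incl y))⟩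

/-- The fixed algebra inside the ultrapower. -/
def toOmega (α : G → A ≃⋆ₐ[ℂ] A) (N : Subgroup G) :
    fixH (centralAct ω α) N →⋆ₐ[ℂ] AOmega A ω :=
  (central A ω).subtype.comp (fixH (centralAct ω α) N).subtype

include hω hα

theorem saturated_autH (N : Subgroup G) (t : G) (ht : ∀ n ∈ N, t⁻¹ * n * t ∈ N)
    (ht' : ∀ n ∈ N, t * n * t⁻¹ ∈ N) :
    Saturated (F := fixH (centralAct ω α) N)
      (autH (isAct_centralAct (ω := ω) α hα) N t ht ht') := by
  refine saturated_of_embedding hω _ (toOmega α N) (fun x y h => Subtype.ext (Subtype.ext h))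
    (fun n : N => (α n).toStarAlgHom) (α t).toStarAlgHom (fun x => x.1.2) (fun x n => ?_)
    (fun x => ?_) fun z hz hn => ?_
  · exact congrArg Subtype.val (mem_fixH.1 x.2 n n.2)
  · rfl
  · exact ⟨⟨⟨z, hz⟩, mem_fixH.2 fun n h => Subtype.ext (hn ⟨n, h⟩)⟩, rfl⟩

theorem central_fixH (N : Subgroup G) : HasCentralCopy (fixH (centralAct ω α) N) :=
  central_fixH_of (isAct_centralAct α hα) (exists_centralCopy hω α hα) N

theorem setting_autH (N : Subgroup G) (t : G) (ht : ∀ n ∈ N, t⁻¹ * n * t ∈ N)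
    (ht' : ∀ n ∈ N, t * n * t⁻¹ ∈ N) (hN : Good (centralAct ω α) N) :
    Setting (F := fixH (centralAct ω α) N) (autH (isAct_centralAct (ω := ω) α hα) N t ht ht') where
  noChar := hN
  copies s hs _ := exists_eCopies (isAct_centralAct α hα) (hasEquivCopies hω α hα) N t _
    (fun x => autH_coe _ N t ht ht' x) s hs
  central := central_fixH hω hα N
  saturated := saturated_autH hω hα N t ht ht'

omit hω hα

omit [Countable G] in
/-- One more normalising element, abstractly. -/
theorem good_of_zcore (hZ : ZCoreTarget) {F : Type} [CStarAlgebra F] {β : G → F →⋆ₐ[ℂ] F}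
    (hact : IsAct β) (N : Subgroup G) (t : G)
    (ht : ∀ n ∈ N, t⁻¹ * n * t ∈ N) (ht' : ∀ n ∈ N, t * n * t⁻¹ ∈ N)
    (hset : Setting (F := fixH β N) (autH hact N t ht ht')) :
    Good β (N ⊔ Subgroup.zpowers t) := by
  set σ := autH hact N t ht ht' with hσ
  have hmem : ∀ x : fixedBy σ, (x : fixH β N).1 ∈ fixH β (N ⊔ Subgroup.zpowers t) := by
    intro x
    have hx : β t x.1.1 = x.1.1 := by
      rw [← autH_coe hact N t ht ht']
      exact congrArg Subtype.val x.2
    let stab : Subgroup G :=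
      { carrier := {g | β g x.1.1 = x.1.1}
        one_mem' := hact.one _
        mul_mem' := fun {g g'} hg hg' => by
          show β (g * g') _ = _
          rw [hact.mul, hg', hg]
        inv_mem' := fun {g} hg => by
          show β g⁻¹ _ = _
          conv_lhs => rw [← show β g x.1.1 = x.1.1 from hg]
          rw [← hact.mul, inv_mul_cancel, hact.one] }
    exact mem_fixH.2 fun g hg => (sup_le (c := stab) (fun n hn => mem_fixH.1 x.1.2 n hn)
      (Subgroup.zpowers_le.2 hx)) hg
  exact ⟨fun χ => (hZ _ σ hset).false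
    (χ.comp (((fixH β N).subtype.comp (fixedBy σ).subtype).codRestrict _ hmem))⟩

include hω hα

/-- One more normalising element. -/
theorem good_step (hZ : ZCoreTarget) (N : Subgroup G) (t : G)
    (ht : ∀ n ∈ N, t⁻¹ * n * t ∈ N) (ht' : ∀ n ∈ N, t * n * t⁻¹ ∈ N)
    (hN : Good (centralAct ω α) N) : Good (centralAct ω α) (N ⊔ Subgroup.zpowers t) :=
  good_of_zcore hZ (isAct_centralAct α hα) N t ht ht' (setting_autH hω hα N t ht ht' hN)

end

end Vale.Agent.P095.Amen
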