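import Vale.Agent.P095.Amen.Defs

/-!
# P095: saturation of central sequence algebras
-/

namespace Vale.Agent.P095.Amen

open Filter Topology BoundedContinuousFunction TopologicalSpace Vale.Agent.P101.KR
  Vale.Agent.P101.Bridge Vale.Agent.P095.Equiv

noncomputable section

theorem Term.eval_map {F E : Type} [CStarAlgebra F] [CStarAlgebra E] (f : F →⋆ₐ[ℂ] E) {k : ℕ}
    (t : Term k) (x : Fin k → F) : f (t.eval x) = t.eval fun i => f (x i) := by
  induction t <;> simp [Term.eval, *, map_star]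

theorem Term.eval_apply {A : Type} [CStarAlgebra A] {k : ℕ} (t : Term k) (v : Fin k → ℕ →ᵇ A)
    (n : ℕ) : t.eval v n = t.eval fun i => v i n := by
  induction t <;> simp [Term.eval, *]

/-- Approximate central solutions of finitely many relations and countably many invariance
conditions give exact ones. -/
theorem saturate_central {A : Type} [CStarAlgebra A] [SeparableSpace A] {ω : Ultrafilter ℕ}
    (hω : (ω : Filter ℕ) ≤ cofinite) {ι : Type} [Countable ι] (g : ι → A →⋆ₐ[ℂ] A) {k : ℕ}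
    (J : Fin k → Set ι) (rels : List (Term k)) (C : ℝ)
    (h : ∀ ε : ℝ, 0 < ε → ∀ T : Finset ι, ∃ x : Fin k → AOmega A ω, (∀ i, ‖x i‖ ≤ C) ∧
      (∀ r ∈ rels, ‖r.eval x‖ ≤ ε) ∧ (∀ i, x i ∈ central A ω) ∧
      ∀ i, ∀ j ∈ J i, j ∈ T → ‖omegaMap ω (g j) (x i) - x i‖ ≤ ε) :
    ∃ x : Fin k → AOmega A ω, (∀ r ∈ rels, r.eval x = 0) ∧ (∀ i, x i ∈ central A ω) ∧
      ∀ i, ∀ j ∈ J i, omegaMap ω (g j) (x i) = x i := by
  classical
  obtain ⟨code, hcode⟩ := Countable.exists_injective_nat ι
  set a : ℕ → A := denseSeq A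
  set η : ℕ → ℝ := fun p => 1 / (p + 1 : ℝ)
  have hη : ∀ p, 0 < η p := fun p => by positivity
  have hfin : ∀ p, {j | code j ≤ p}.Finite := fun p =>
    (Set.finite_le_nat p).preimage hcode.injOn
  choose x hxC hxr hxc hxJ using fun p => h (η p) (hη p) (hfin p).toFinset
  have hlift : ∀ p i, ∃ v : OSeq A ω, cls ω v.toBCF = x p i ∧ ∀ n, ‖v.toBCF n‖ ≤ |C| + 1 := by
    intro p i
    obtain ⟨z, hz⟩ := cls_surjective (x p i)
    have hn : ‖OSeq.ofBCF (ω := ω) z‖ < |C| + 1 := by
      have h1 : ‖OSeq.ofBCF (ω := ω) z‖ = ‖x p i‖ := by rw [← hz]; rfl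
      linarith [hxC p i, le_abs_self C]
    obtain ⟨y, hy, hyb⟩ := exists_small _ hn
    refine ⟨y, ?_, hyb⟩
    rw [← hz]
    refine (sub_eq_zero.1 ?_).symm
    rw [← map_sub, ← norm_eq_zero, norm_cls]
    exact hy
  choose v hv hvb using hlift
  -- the conditions of stage `p` at the coordinate `n`
  let Ok : ℕ → ℕ → Prop := fun p n => p ≤ n ∧
    (∀ r ∈ rels, ‖r.eval fun i => (v p i).toBCF n‖ ≤ 2 * η p) ∧
    (∀ i, ∀ q ≤ p, ‖a q * (v p i).toBCF n - (v p i).toBCF n * a q‖ ≤ 2 * η p) ∧
    ∀ i, ∀ j ∈ J i, code j ≤ p → ‖g j ((v p i).toBCF n) - (v p i).toBCF n‖ ≤ 2 * η p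
  have small : ∀ (p : ℕ) (z : ℕ →ᵇ A), ‖cls ω z‖ ≤ η p →
      ∀ᶠ n in (ω : Filter ℕ), ‖z n‖ ≤ 2 * η p := fun p z hz =>
    ((tendsto_omegaNorm ω z).eventually (gt_mem_nhds (by
      rw [← norm_cls]; linarith [hη p] : omegaNorm ω z < 2 * η p))).mono fun _ hn => hn.le
  have hok : ∀ p, ∀ᶠ n in (ω : Filter ℕ), Ok p n := by
    intro p
    refine (Eventually.filter_mono hω (Filter.eventually_cofinite.2
      ((Finset.range p).finite_toSet.subset fun n hn => by simpa using hn))).and ?_
    refine ((Set.Finite.eventually_all (I := {r | r ∈ rels}) rels.finite_toSet).2 fun r hr => ?_).and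
      ((eventually_all.2 fun i => (Set.Finite.eventually_all (I := {q | q ≤ p}) (Set.finite_le_nat p)).2
        fun q _ => ?_).and (eventually_all.2 fun i => ?_))
    · refine (small p (r.eval fun i => (v p i).toBCF) ?_).mono fun n hn => ?_
      · rw [Term.eval_map]
        simpa only [hv] using hxr p r hr
      · rwa [Term.eval_apply] at hn
    · refine (small p (BoundedContinuousFunction.const ℕ (a q) * (v p i).toBCF
        - (v p i).toBCF * BoundedContinuousFunction.const ℕ (a q)) ?_).mono fun n hn => by simpa using hn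
      rw [map_sub, map_mul, map_mul, hv, show cls ω (BoundedContinuousFunction.const ℕ (a q)) = emb ω (a q)
        from rfl, mem_central.1 (hxc p i) (a q), sub_self, norm_zero]
      exact (hη p).le
    · have hfin' : {j | j ∈ J i ∧ code j ≤ p}.Finite := (hfin p).subset fun j hj => hj.2
      refine (hfin'.eventually_all.2 fun j hj => ?_).mono fun n hn j hj hjp => hn j ⟨hj, hjp⟩
      refine (small p (seqMap (g j) (v p i).toBCF - (v p i).toBCF) ?_).mono fun n hn => by
        simpa [seqMap_apply] using hn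
      rw [map_sub, ← omegaMap_cls, hv]
      exact hxJ p i j hj.1 ((hfin p).mem_toFinset.2 hj.2)
  -- the diagonal
  let sel : ℕ → ℕ := fun n => Nat.findGreatest (fun p => Ok p n) n
  let w : Fin k → ℕ →ᵇ A := fun i => BoundedContinuousFunction.ofNormedAddCommGroup
    (fun n => (v (sel n) i).toBCF n) continuous_of_discreteTopology (|C| + 1) fun n => hvb _ _ n
  have hsel : ∀ p, ∀ᶠ n in (ω : Filter ℕ), p ≤ sel n ∧ Ok (sel n) n := fun p =>
    (hok p).mono fun n hn =>
      ⟨Nat.le_findGreatest hn.1 hn, Nat.findGreatest_spec (P := fun p => Ok p n) hn.1 hn⟩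
  have hlim : ∀ (z : ℕ →ᵇ A) (p₀ : ℕ),
      (∀ n, p₀ ≤ sel n → Ok (sel n) n → ‖z n‖ ≤ 2 * η (sel n)) → cls ω z = 0 := by
    intro z p₀ hz
    rw [← map_zero (cls (A := A) ω), cls_eq_iff]
    refine Metric.tendsto_nhds.2 fun ε hε => ?_
    obtain ⟨p, hp⟩ := exists_nat_gt (2 / ε)
    filter_upwards [hsel (max p p₀)] with n ⟨hn, hok'⟩
    simp only [BoundedContinuousFunction.coe_zero, Pi.zero_apply, sub_zero, dist_zero_right, norm_norm]
    refine lt_of_le_of_lt (hz n ((le_max_right _ _).trans hn) hok') ?_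
    simp only [η, ← mul_div_assoc, mul_one]
    rw [div_lt_iff₀ (by positivity)]
    rw [div_lt_iff₀ hε] at hp
    have : (p : ℝ) ≤ sel n := by exact_mod_cast (le_max_left p p₀).trans hn
    nlinarith
  refine ⟨fun i => cls ω (w i), fun r hr => ?_, fun i => ?_, fun i j hj => ?_⟩
  · rw [← Term.eval_map]
    refine hlim _ 0 fun n _ hn => ?_
    rw [Term.eval_apply]
    exact hn.2.1 r hr
  · have hd : ∀ q, emb ω (a q) * cls ω (w i) = cls ω (w i) * emb ω (a q) := fun q => by
      refine sub_eq_zero.1 ?_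
      rw [show emb ω (a q) = cls ω (BoundedContinuousFunction.const ℕ (a q)) from rfl, ← map_mul,
        ← map_mul, ← map_sub]
      refine hlim _ q fun n hq hn => ?_
      simpa [w] using hn.2.2.1 i q hq
    rw [mem_central]
    intro b
    have hc : Continuous (emb (A := A) ω) :=
      AddMonoidHomClass.continuous_of_bound (emb (A := A) ω) 1 fun y => by
        simpa using NonUnitalStarAlgHom.norm_apply_le (emb (A := A) ω) y
    exact congrFun ((denseRange_denseSeq A).equalizer (hc.fun_mul continuous_const)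
      (continuous_const.fun_mul hc) (funext hd)) b
  · refine sub_eq_zero.1 ?_
    rw [omegaMap_cls, ← map_sub]
    refine hlim _ (code j) fun n hq hn => ?_
    simpa [seqMap_apply, w] using hn.2.2.2 i j hj hq

end

end Vale.Agent.P095.Amen
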